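import Vale.Agent.P133.Combine
import Vale.Agent.P133dim.Dim
import Vale.Agent.P133dim.Sys

/-!
The three notions of pure infiniteness coincide when the lattice of closed ideals has locally
finite covering order.
-/

open Vale.Agent.P133 Vale.Agent.P133dim

namespace Vale.Agent.Results.P133.FiniteDimensionAllThree

theorem result (A : Type*) [NonUnitalCStarAlgebra A] [PartialOrder A] [StarOrderedRing A] :
    (FiniteOrder A → (WeaklyPurelyInfinite A ↔ PurelyInfinite A) ∧
      (PurelyInfinite A ↔ StronglyPurelyInfinite A)) ∧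
    (DisjointRefinement A ∨ IdealsTotallyOrdered A → FiniteOrder A) :=
  ⟨fun hO => ⟨⟨fun hW => spi_to_pi (spi_of_wpi_order hO hW), pi_to_wpi⟩,
    ⟨fun hP => spi_of_wpi_order hO (pi_to_wpi hP), spi_to_pi⟩⟩,
   fun h => finiteOrder_of_disjointRefinement (h.elim id disjointRefinement_of_total)⟩

end Vale.Agent.Results.P133.FiniteDimensionAllThree
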